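import Vale.Agent.P022.H406.L3.Fld
import Vale.Agent.P022.H218.L3.Base
import Vale.Agent.P022.H587.L3.Kum2

/-! # P022-L3: assembly of `Fill M` from the analytic inputs -/

open UpperHalfPlane ModularForm HahnSeries CongruenceSubgroup
open scoped Manifold MatrixGroups ModularForm IntermediateField

noncomputable section

namespace Vale.Agent.P022.H406.L3

open Vale.Agent.P022.H542.L3 Vale.Agent.P022.H218.L3 Vale.Agent.P022.L3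
  Vale.Agent.P022.H587.L3

/-- the base: the Hauptmodul of `Γ₀(6)` -/
structure BaseIn where
  P : ℍ → ℂ
  hP : P ∈ Hol
  mf : MF (Gamma0 6) = IntermediateField.adjoin ℂ {inc P hP}
  der : ∀ τ : ℍ, deriv (P ∘ ofComplex) (τ : ℂ) ≠ 0
  onto : ∀ a : ℂ, (∀ s ∈ S0, a ≠ (s : ℂ)) → ∃ τ, P τ = a
  omit' : ∀ τ, ∀ s ∈ S0, P τ ≠ (s : ℂ)

/-- the field of the group `G(3, M + 1)` -/
abbrev KM (M : ℕ) : IntermediateField ℂ Mer := MF (G3 (M + 1))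

/-- the Hauptmodul as an element of the field of `G(3, M + 1)` -/
def BaseIn.p (B : BaseIn) (M : ℕ) : KM M :=
  ⟨inc B.P B.hP, MF_mono (G3_le M) (by
    rw [B.mf]; exact IntermediateField.mem_adjoin_simple_self ℂ _)⟩

theorem BaseIn.p_coe (B : BaseIn) (M : ℕ) : ((B.p M : KM M) : Mer) = inc B.P B.hP := rfl

theorem BaseIn.mf' (B : BaseIn) (M : ℕ) :
    MF (Gamma0 6) = IntermediateField.adjoin ℂ {((B.p M : KM M) : Mer)} := B.mf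

/-- the generators and the expansion -/
structure GenIn (B : BaseIn) (M : ℕ) where
  e : KM M →ₐ[ℂ] LS
  R : Set (KM M)
  pR : B.p M ∈ R
  int : ∀ r ∈ R, ∃ m : ℕ, ∀ n : ℤ, ∃ z : ℤ, ((6 : ℕ) : ℂ) ^ m * (e r).coeff n = z
  lead : ∃ n : ℤ, n ≠ 0 ∧ BUnit 6 ((e (B.p M)).coeff n)
  stab : ∀ γ ∈ Gamma0 6, (∀ r ∈ R, act γ (r : Mer) = r) → γ ∈ G3 (M + 1)

/-- the geometry -/
def GenIn.geo {B : BaseIn} {M : ℕ} (I : GenIn B M) : Geo 6 where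
  K := KM M
  p := B.p M
  R := I.R
  e := I.e
  S := S0
  pR := I.pR
  gen := gen_top (G3_normal (M + 1)) (B.p M) (B.mf' M) I.R I.pR I.stab
  int := I.int
  lead := I.lead
  Sint := S0_int
  Ssep := S0_sep
  fin := (galois_G3 M (B.p M) (B.mf' M)).1
  gal := (galois_G3 M (B.p M) (B.mf' M)).2.1
  two := (galois_G3 M (B.p M) (B.mf' M)).2.2.1
  pt := exists_pt (G3 (M + 1)) B.hP (B.p M).2 B.der S0 B.onto

/-- the Hecke operators -/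
structure HkIn {B : BaseIn} {M : ℕ} (I : GenIn B M) where
  D : ℕ → (KM M ≃ₐ[ℂ⟮B.p M⟯] KM M)
  Drat : ∀ ℓ : ℕ, ℓ.Prime → ¬ ℓ ∣ 6 → ∀ r ∈ I.R, D ℓ r ∈ Subfield.closure I.R
  T : ℕ → ((KM M)ˣ →* (KM M)ˣ)
  Te : ∀ ℓ : ℕ, ∀ h : ℓ.Prime, ¬ ℓ ∣ 6 → ∀ ζ : ℂ, (hζ : IsPrimitiveRoot ζ ℓ) → ∀ f : (KM M)ˣ,
    sb ℓ h.pos (I.e (T ℓ f : KM M)) =
      (∏ j ∈ Finset.range ℓ, rs (ζ ^ j) (pow_ne_zero _ (hζ.ne_zero h.ne_zero))
        (I.e (f : KM M))) * sb (ℓ * ℓ) (Nat.mul_pos h.pos h.pos) (I.e (D ℓ (f : KM M)))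
  TDv : ∀ ℓ : ℕ, ℓ.Prime → ¬ ℓ ∣ 6 → ∀ n : ℕ, ∀ f : (KM M)ˣ,
    Dv (2 ^ n) ((f : KM M) : Mer) → Dv (2 ^ n) (((T ℓ f : (KM M)ˣ) : KM M) : Mer)
  Tval : ∀ (n ℓ : ℕ), Good 3 ℓ → ∀ (φ ψ : V 3 (M + 1) n) (f : (KM M)ˣ) (y : Mer), y ≠ 0 →
    y ^ 2 ^ n = ((f : KM M) : Mer) → IsVal (G3 (M + 1)) y (φ : SL(2, ℤ) → ZMod (2 ^ n)) →
    IsT 3 (M + 1) n ℓ φ ψ → ∃ z : Mer, z ≠ 0 ∧ z ^ 2 ^ n = (((T ℓ f : (KM M)ˣ) : KM M) : Mer) ∧
      IsVal (G3 (M + 1)) z (ψ : SL(2, ℤ) → ZMod (2 ^ n))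
  Dval : ∀ (n ℓ : ℕ), Good 3 ℓ → ∀ (φ ψ : V 3 (M + 1) n) (f : (KM M)ˣ) (y : Mer), y ≠ 0 →
    y ^ 2 ^ n = ((f : KM M) : Mer) → IsVal (G3 (M + 1)) y (φ : SL(2, ℤ) → ZMod (2 ^ n)) →
    IsD 3 (M + 1) n ℓ φ ψ → ∃ z : Mer, z ≠ 0 ∧ z ^ 2 ^ n = ((D ℓ (f : KM M) : KM M) : Mer) ∧
      IsVal (G3 (M + 1)) z (ψ : SL(2, ℤ) → ZMod (2 ^ n))

/-- [KUM3] the condition on the points is the condition on the orders -/
def UDv {B : BaseIn} {M : ℕ} (I : GenIn B M) : Prop :=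
  ∀ (n : ℕ) (f : (KM M)ˣ), f ∈ I.geo.U (2 ^ n) ↔ Dv (2 ^ n) ((f : KM M) : Mer)

section

variable {B : BaseIn} {M : ℕ} (I : GenIn B M) (H : HkIn I) (hU : UDv I)

include hU in
/-- the structure `Hk` -/
def HkIn.hk : Hk I.geo where
  D := H.D
  Drat := H.Drat
  T := H.T
  Te := H.Te
  TU ℓ h h6 n f hf := (hU n _).2 (H.TDv ℓ h h6 n f ((hU n f).1 hf))

/-- the Kummer map -/
def kap (n : ℕ) : I.geo.U (2 ^ n) →* Multiplicative (V 3 (M + 1) n) :=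
  kum (N := 3) (M := M + 1) (n := n) (Γ := G3 (M + 1)) (fun _ => mem_G3) (I.geo.U (2 ^ n)) (hU n)

theorem kap_apply (n : ℕ) (f : I.geo.U (2 ^ n)) : kap I hU n f = Multiplicative.ofAdd
    (kv (N := 3) (M := M + 1) (n := n) (Γ := G3 (M + 1)) (fun _ => mem_G3) (I.geo.U (2 ^ n))
      (hU n) f) := rfl

theorem kap_surj (n : ℕ) : Function.Surjective (kap I hU n) := by
  intro v
  obtain ⟨f, hf⟩ := kv_surj (N := 3) (M := M + 1) (n := n) (Γ := G3 (M + 1)) (fun _ => mem_G3)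
    (I.geo.U (2 ^ n)) (hU n) v.toAdd
  exact ⟨f, congrArg Multiplicative.ofAdd hf⟩

theorem kap_ker (n : ℕ) : (kap I hU n).ker = (I.geo.pw (2 ^ n)).subgroupOf (I.geo.U (2 ^ n)) := by
  ext f
  rw [MonoidHom.mem_ker, Subgroup.mem_subgroupOf, Geo.mem_pw, kap_apply]
  exact (Multiplicative.ofAdd.injective.eq_iff' ofAdd_zero).trans
    (kv_ker (N := 3) (M := M + 1) (n := n) (Γ := G3 (M + 1)) (fun _ => mem_G3)
      (I.geo.U (2 ^ n)) (hU n) f)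

/-- the isomorphism -/
def psi (n : ℕ) : Multiplicative (V 3 (M + 1) n) ≃* I.geo.V (2 ^ n) :=
  ((QuotientGroup.quotientMulEquivOfEq (kap_ker I hU n)).symm.trans
    (QuotientGroup.quotientKerEquivOfSurjective (kap I hU n) (kap_surj I hU n))).symm

theorem psi_symm (n : ℕ) (f : I.geo.U (2 ^ n)) :
    (psi I hU n).symm (f : I.geo.V (2 ^ n)) = kap I hU n f := rfl

theorem psi_iff (n : ℕ) (φ : V 3 (M + 1) n) (f : I.geo.U (2 ^ n)) :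
    psi I hU n (Multiplicative.ofAdd φ) = (f : I.geo.V (2 ^ n)) ↔
      kv (N := 3) (M := M + 1) (n := n) (Γ := G3 (M + 1)) (fun _ => mem_G3) (I.geo.U (2 ^ n))
        (hU n) f = φ := by
  rw [← MulEquiv.eq_symm_apply, psi_symm, kap_apply]
  exact ⟨fun h => (Multiplicative.ofAdd.injective h).symm, fun h => by rw [h]⟩

/-- **`Fill (M + 1)`** -/
def fillOf : Fill (M + 1) where
  G := I.geo
  H := H.hk I hU
  Ψ := psi I hU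
  T n ℓ hℓ φ ψ f g hf hg hT := by
    rw [psi_iff] at hf ⊢
    obtain ⟨y, y0, hy⟩ := ex_root (I.geo.U (2 ^ n)) (hU n) f
    have h1 := kv_spec (N := 3) (M := M + 1) (n := n) (Γ := G3 (M + 1)) (fun _ => mem_G3)
      (I.geo.U (2 ^ n)) (hU n) f y hy
    rw [hf] at h1
    obtain ⟨z, z0, hz, hv⟩ := H.Tval n ℓ hℓ φ ψ f.1 y y0 hy h1 hT
    refine kv_eq _ _ _ g z z0 ?_ ψ hv
    rw [hz]
    exact congrArg (fun u : (KM M)ˣ => ((u : KM M) : Mer)) hg.symm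
  D n ℓ hℓ φ ψ f h hf hh hD := by
    rw [psi_iff] at hf ⊢
    obtain ⟨y, y0, hy⟩ := ex_root (I.geo.U (2 ^ n)) (hU n) f
    have h1 := kv_spec (N := 3) (M := M + 1) (n := n) (Γ := G3 (M + 1)) (fun _ => mem_G3)
      (I.geo.U (2 ^ n)) (hU n) f y hy
    rw [hf] at h1
    obtain ⟨z, z0, hz, hv⟩ := H.Dval n ℓ hℓ φ ψ f.1 y y0 hy h1 hD
    refine kv_eq _ _ _ h z z0 ?_ ψ hv
    rw [hz]
    exact congrArg (fun u : KM M => (u : Mer)) hh.symm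

end

/-- the assembly -/
theorem fill_of (h : ∀ M : ℕ, 1 ≤ M → ∃ (B : BaseIn) (I : GenIn B M) (_ : HkIn I), UDv I) :
    ∀ M, 2 ≤ M → Nonempty (Fill M) := by
  intro M hM
  obtain ⟨M', rfl⟩ : ∃ M', M = M' + 1 := ⟨M - 1, by omega⟩
  obtain ⟨B, I, H, hU⟩ := h M' (by omega)
  exact ⟨fillOf I H hU⟩

end Vale.Agent.P022.H406.L3
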