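import Vale.Agent.P022.H406.L3.HkF

/-! # P022-L3: `Fill M` -/

open UpperHalfPlane ModularForm HahnSeries CongruenceSubgroup
open scoped Manifold MatrixGroups ModularForm IntermediateField

noncomputable section

namespace Vale.Agent.P022.H406.L3

open Vale.Agent.P022.H218.L3 Vale.Agent.P022.H542.L3 Vale.Agent.P022.L3
  Vale.Agent.P022.H587.L3

/-- the Hecke operators on the field of `Γ` -/
theorem exists_hk (M : ℕ) (hM : 1 ≤ M) : ∀ (Γ : Subgroup SL(2, ℤ)),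
    Γ = H231.L3.Gp (PM M) (QM M) → ∀ (hΓ : ModularGroup.T ^ (2 ^ M) ∈ Γ) (p : H218.L3.MF Γ),
    (p : Mer) ∈ H218.L3.MF (Gamma0 6) →
    ∃ (D : ℕ → (H218.L3.MF Γ ≃ₐ[ℂ⟮p⟯] H218.L3.MF Γ)) (T : ℕ → ((H218.L3.MF Γ)ˣ →* (H218.L3.MF Γ)ˣ)),
      (∀ ℓ : ℕ, ∃ δ : SL(2, ℤ), QM M ∣ δ 1 0 ∧ PM M ∣ δ 0 1 ∧
        ∀ x : H218.L3.MF Γ, ((D ℓ x : H218.L3.MF Γ) : Mer) = act δ (x : Mer)) ∧
      (∀ ℓ : ℕ, ∀ h : ℓ.Prime, ¬ ℓ ∣ 6 → ∀ ζ : ℂ, (hζ : IsPrimitiveRoot ζ ℓ) → ∀ f : (H218.L3.MF Γ)ˣ,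
        sb ℓ h.pos (H236.L3.texM hΓ (T ℓ f : H218.L3.MF Γ)) =
          (∏ j ∈ Finset.range ℓ, rs (ζ ^ j) (pow_ne_zero _ (hζ.ne_zero h.ne_zero))
            (H236.L3.texM hΓ (f : H218.L3.MF Γ))) *
            sb (ℓ * ℓ) (Nat.mul_pos h.pos h.pos) (H236.L3.texM hΓ (D ℓ (f : H218.L3.MF Γ)))) ∧
      (∀ ℓ : ℕ, ℓ.Prime → ¬ ℓ ∣ 6 → ∀ n : ℕ, ∀ f : (H218.L3.MF Γ)ˣ,
        Dv (2 ^ n) ((f : H218.L3.MF Γ) : Mer) → Dv (2 ^ n) (((T ℓ f : (H218.L3.MF Γ)ˣ) : H218.L3.MF Γ) : Mer)) ∧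
      (∀ (n ℓ : ℕ), Good 3 ℓ → ∀ (φ ψ : V 3 M n) (f : (H218.L3.MF Γ)ˣ) (y : Mer), y ≠ 0 →
        y ^ 2 ^ n = ((f : H218.L3.MF Γ) : Mer) → IsVal Γ y (φ : SL(2, ℤ) → ZMod (2 ^ n)) →
        IsT 3 M n ℓ φ ψ → ∃ z : Mer, z ≠ 0 ∧ z ^ 2 ^ n = (((T ℓ f : (H218.L3.MF Γ)ˣ) : H218.L3.MF Γ) : Mer) ∧
          IsVal Γ z (ψ : SL(2, ℤ) → ZMod (2 ^ n))) ∧
      (∀ (n ℓ : ℕ), Good 3 ℓ → ∀ (φ ψ : V 3 M n) (f : (H218.L3.MF Γ)ˣ) (y : Mer), y ≠ 0 →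
        y ^ 2 ^ n = ((f : H218.L3.MF Γ) : Mer) → IsVal Γ y (φ : SL(2, ℤ) → ZMod (2 ^ n)) →
        IsD 3 M n ℓ φ ψ → ∃ z : Mer, z ≠ 0 ∧ z ^ 2 ^ n = ((D ℓ (f : H218.L3.MF Γ) : H218.L3.MF Γ) : Mer) ∧
          IsVal Γ z (ψ : SL(2, ℤ) → ZMod (2 ^ n))) := by
  rintro Γ rfl hΓ p hp
  have h6 : ∀ {ℓ : ℕ}, Good 3 ℓ → ¬ ℓ ∣ 6 := fun h => by simpa using h.2
  have hroot : ∀ (n : ℕ) (f : (H218.L3.MF (H231.L3.Gp (PM M) (QM M)))ˣ),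
      ((f : H218.L3.MF (H231.L3.Gp (PM M) (QM M))) : Mer) ≠ 0 := fun n f e => f.ne_zero (Subtype.ext e)
  refine ⟨H231.L3.DK (h0_six M hM) hp, H231.L3.TK (PM M) (QM M), ?_, ?_, ?_, ?_, ?_⟩
  · intro ℓ
    obtain ⟨a, ha⟩ := H231.L3.isDel_dl' (PM M) (QM M) ℓ
    refine ⟨(H231.L3.dl (PM M) (QM M) ℓ)⁻¹, ?_, ?_, fun x => ?_⟩
    · rw [Matrix.SpecialLinearGroup.SL2_inv_expl]
      simpa using ha.1
    · rw [Matrix.SpecialLinearGroup.SL2_inv_expl]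
      simpa using ha.2.1
    · exact H231.L3.DC_coe (PM M) (QM M) ℓ x
  · intro ℓ h hl ζ hζ f
    exact H236.L3.te_DK (N := 2 ^ M) (Q := QM M) hΓ (gd h hl) (odd_of h hl) (h0_six M hM) hp ζ hζ f
  · intro ℓ h hl n f hf
    obtain ⟨y, y0, hy⟩ := exists_root (zero_lt_two_pow n) (hroot n f) hf
    have e : H231.L3.TM h.pos (PM M) (H231.L3.dl (PM M) (QM M) ℓ) y ^ 2 ^ n =
        (((H231.L3.TK (PM M) (QM M) ℓ f : (H218.L3.MF (H231.L3.Gp (PM M) (QM M)))ˣ) :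
          H218.L3.MF (H231.L3.Gp (PM M) (QM M))) : Mer) := by
      rw [← H231.L3.TM_pow, hy, H231.L3.TK_TM (gd h hl) (gd h hl).del]
    rw [← e]
    exact Dv_pow _ _ (H231.L3.TM_ne_zero h.pos (PM M) _ y0)
  · intro n ℓ hℓ φ ψ f y y0 hy hv hT
    have hd := (gd (M := M) hℓ.1 (h6 hℓ)).del
    refine ⟨H231.L3.TM hℓ.1.pos (PM M) (H231.L3.dl (PM M) (QM M) ℓ) y,
      H231.L3.TM_ne_zero hℓ.1.pos (PM M) _ y0, ?_, val_T hℓ.1 hd hv hT⟩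
    rw [← H231.L3.TM_pow, hy, H231.L3.TK_TM (gd hℓ.1 (h6 hℓ)) hd]
  · intro n ℓ hℓ φ ψ f y y0 hy hv hD
    have hd := (gd (M := M) hℓ.1 (h6 hℓ)).del
    refine ⟨act (H231.L3.dl (PM M) (QM M) ℓ)⁻¹ y, (map_ne_zero _).2 y0, ?_, val_D hd hv hD⟩
    rw [← map_pow, hy]
    rfl

theorem p_mem_six (M : ℕ) : ((base6.p M : KM M) : Mer) ∈ H218.L3.MF (Gamma0 6) := by
  rw [base6.p_coe, base6.mf]
  exact IntermediateField.mem_adjoin_simple_self ℂ _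

/-- [HK] the Hecke operators -/
theorem exists_hkIn (M : ℕ) (hM : 1 ≤ M) : Nonempty (HkIn (gen6 M hM)) := by
  obtain ⟨D, T, h1, h2, h3, h4, h5⟩ := exists_hk (M + 1) (by omega) (G3 (M + 1)) (G3_eq (M + 1))
    (T_pow_mem (M + 1)) (base6.p M) (p_mem_six M)
  refine ⟨⟨D, fun ℓ _ _ r hr => ?_, T, h2, h3, h4, h5⟩⟩
  obtain ⟨δ, hC, hB, hδ⟩ := h1 ℓ
  obtain ⟨r', hr', e⟩ := H280.L3.act_Rset (by omega) (base6.p M) (p_mem_six M) δ hC hB r hr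
  have : D ℓ r = r' := Subtype.ext ((hδ r).trans e.symm)
  rw [this]
  exact Subfield.subset_closure hr'

theorem uDv (M : ℕ) (hM : 1 ≤ M) : UDv (gen6 M hM) := by
  intro n f
  obtain ⟨-, hg, -, hG, -⟩ := galois_G3 M (base6.p M) (base6.mf' M)
  exact mem_U_iff (base6.p M) base6.hP rfl base6.der S0 base6.omit' base6.onto hg.to_normal
    (fun g => by
      obtain ⟨γ, -, h⟩ := hG g
      exact ⟨γ, h⟩) (2 ^ n) f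

/-- **[FILL]** -/
theorem fill : ∀ M, 2 ≤ M → Nonempty (Fill M) := by
  refine fill_of fun M hM => ?_
  obtain ⟨H⟩ := exists_hkIn M hM
  exact ⟨base6, gen6 M hM, H, uDv M hM⟩

end Vale.Agent.P022.H406.L3
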