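import Vale.Agent.P022.H406.L3.Asm
import Vale.Agent.P022.H218.L3.Hp
import Vale.Agent.P022.H494.L3.Id
import Vale.Agent.P022.H29.L3.Onto

/-! # P022-L3: the base `Γ₀(6)` -/

open UpperHalfPlane ModularForm HahnSeries CongruenceSubgroup Filter Topology
open scoped Manifold MatrixGroups ModularForm IntermediateField

noncomputable section

namespace Vale.Agent.P022.H406.L3

open Vale.Agent.P022.H218.L3 Vale.Agent.P022.H494.L3 Vale.Agent.P022.H29.L3

theorem neg_one_notMem : (-1 : SL(2, ℤ)) ∉ Gamma1 6 := by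
  intro h
  rw [Gamma1_mem] at h
  have h1 := h.1
  simp only [Matrix.SpecialLinearGroup.coe_neg, Matrix.SpecialLinearGroup.coe_one,
    Matrix.neg_apply, Matrix.one_apply_eq] at h1
  revert h1
  decide

theorem E4_tendsto : Tendsto (E₄ : ℍ → ℂ) atImInfty (𝓝 1) := by
  have hv : valueAtInfty (E₄ : ℍ → ℂ) = 1 := by
    have h1 := EisensteinSeries.E_qExpansion_coeff_zero (k := 4) (by norm_num) ⟨2, rfl⟩
    have h1s : (1 : ℝ) ∈ (𝒮ℒ).strictPeriods := by simp
    rw [UpperHalfPlane.qExpansion_coeff_zero one_pos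
      (ModularFormClass.analyticAt_cuspFunction_zero E₄ one_pos h1s)
      (SlashInvariantFormClass.periodic_comp_ofComplex E₄ h1s)] at h1
    exact h1
  obtain ⟨c, hc, h⟩ := ModularFormClass.exp_decay_sub_atImInfty' (E₄)
  rw [hv] at h
  have h2 : Tendsto (fun τ : ℍ => Real.exp (-c * τ.im)) atImInfty (𝓝 0) := by
    refine Real.tendsto_exp_atBot.comp ?_
    have h3 : Tendsto (fun τ : ℍ => τ.im) atImInfty atTop := tendsto_comap
    exact h3.const_mul_atTop_of_neg (by linarith)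
  have h4 := h.trans_tendsto h2
  have h5 := h4.add_const 1
  simpa using h5

theorem ex_X : Ex (fun n => PX.coeff n) X := fun τ => QE_X τ

theorem ex_Y : Ex (fun n => PY.coeff n) Y := fun τ => QE_Y τ

theorem hpH : hp X Y ∈ Hol := hp_mem isMF_X.hol isMF_Y.hol fun τ => (fac_ne τ).2.2.2

theorem coX (n : ℕ) (hn : n < 7) : PX.coeff n = (([1, 6, 0, 6, 6, 0, 0].getD n 0 : ℤ) : ℂ) :=
  isT_X n hn

theorem coY (n : ℕ) (hn : n < 7) : PY.coeff n = (([1, 0, 6, 0, 0, 0, 6].getD n 0 : ℤ) : ℂ) :=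
  isT_Y n hn

theorem hp_der0 (τ : ℍ) : Derivative.normalizedDerivOfComplex (hp X Y) τ ≠ 0 := by
  refine D_hp_ne_zero index_le neg_one_notMem isMF_X isMF_Y ex_X ex_Y ?_ ?_ ?_ ?_ ?_ ?_ ?_ ?_ ?_ ?_
    (fun τ => (fac_ne τ).1) (fun τ => (fac_ne τ).2.1) (fun τ => (fac_ne τ).2.2.1)
    (fun τ => (fac_ne τ).2.2.2) τ
  · simp [coX 0 (by norm_num)]
  · simp [coX 1 (by norm_num)]
  · simp [coX 2 (by norm_num)]
  · simp [coX 3 (by norm_num)]
  · simp [coX 4 (by norm_num)]
  · simp [coY 0 (by norm_num)]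
  · simp [coY 1 (by norm_num)]
  · simp [coY 2 (by norm_num)]
  · simp [coY 3 (by norm_num)]
  · simp [coY 4 (by norm_num)]

theorem hp_der (τ : ℍ) : deriv (hp X Y ∘ ofComplex) (τ : ℂ) ≠ 0 := by
  intro h
  refine hp_der0 τ ?_
  unfold Derivative.normalizedDerivOfComplex
  rw [h, mul_zero]

/-- **the base** -/
def base6 : BaseIn where
  P := hp X Y
  hP := hpH
  mf := (hp_field isMF_X isMF_Y hpH (fun τ => by
    have h := (fac_ne τ).2.2.2
    unfold hp
    exact div_mul_cancel₀ _ (mul_ne_zero two_ne_zero h)) id4 idD).2.2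
  der := hp_der
  onto a ha := by
    refine hp_onto isMF_X isMF_Y isMF_E4 E4_tendsto id4 idD (fun τ => (fac_ne τ).2.2.2)
      (hp_nonconst ⟨UpperHalfPlane.I, hp_der0 _⟩) ?_ ?_ ?_
    · simpa using ha 0 (mem_S0.2 (Or.inl rfl))
    · simpa using ha (1 / 8) (mem_S0.2 (Or.inr (Or.inl rfl)))
    · simpa using ha (-1) (mem_S0.2 (Or.inr (Or.inr rfl)))
  omit' τ s hs := by
    obtain ⟨h1, h2, h3, h4⟩ := fac_ne τ
    unfold hp
    rw [Ne, div_eq_iff (mul_ne_zero two_ne_zero h4)]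
    rcases mem_S0.1 hs with rfl | rfl | rfl
    · intro h; apply h1; rw [h]; push_cast; ring
    · intro h; apply h2; push_cast at h; linear_combination (4 / 3 : ℂ) * h
    · intro h; apply h3; push_cast at h; linear_combination (1 / 3 : ℂ) * h

end Vale.Agent.P022.H406.L3
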