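import Vale.Agent.P022.H239.L3.Theta

/-! # P022-L3: the number of vectors of norm `n ≥ 1` of `x² + x y + y²` is divisible by `6` -/

namespace Vale.Agent.P022.H406.L3

open Vale.Agent.P022 Vale.Agent.P022.H239.L3

/-- the rotation of order three -/
def rot (v : ℤ × ℤ) : ℤ × ℤ := (-v.1 - v.2, v.1)

theorem ph_rot (v : ℤ × ℤ) : ph (rot v) = ph v := by
  unfold ph Qf rot
  congr 1
  ring

theorem rot_three (v : ℤ × ℤ) : rot (rot (rot v)) = v := by
  unfold rot
  ext
  · simp only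
    ring
  · simp only
    ring

theorem rot_ne {v : ℤ × ℤ} (h : v ≠ 0) : rot v ≠ v := by
  intro e
  apply h
  have h1 := congrArg Prod.fst e
  have h2 := congrArg Prod.snd e
  simp only [rot] at h1 h2
  ext <;> simp <;> omega

/-- the rotation of the vectors of norm `n` -/
def rotE (n : ℕ) : Function.End {v : ℤ × ℤ // ph v = n} :=
  fun v => ⟨rot v.1, by rw [ph_rot]; exact v.2⟩

theorem cc_three {n : ℕ} (hn : 0 < n) : 3 ∣ cc n := by
  classical
  have h3 : (rotE n) ^ 3 ^ 1 = 1 := by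
    funext v
    exact Subtype.ext (rot_three v.1)
  have : Fact (Nat.Prime 3) := ⟨by norm_num⟩
  have h := Equiv.Perm.card_fixedPoints_modEq h3
  have hE : IsEmpty (Function.fixedPoints (rotE n)) := by
    refine ⟨fun v => ?_⟩
    have h1 : rotE n v.1 = v.1 := v.2
    have h2 : rot v.1.1 = v.1.1 := congrArg Subtype.val h1
    refine rot_ne (v := v.1.1) ?_ h2
    intro h3
    have h4 := v.1.2
    rw [h3, ph_zero] at h4
    omega
  have h5 : ∀ i : Fintype (Function.fixedPoints (rotE n)), @Fintype.card _ i = 0 :=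
    fun i => Fintype.card_eq_zero_iff.2 hE
  have h2 : cc n ≡ 0 [MOD 3] := h.trans (congrArg (fun x => x % 3) (h5 _))
  exact (Nat.modEq_zero_iff_dvd).1 h2

theorem cc_six {n : ℕ} (hn : 0 < n) : 6 ∣ cc n := by
  have h2 : 2 ∣ cc n := (cc_even hn).two_dvd
  have h3 := cc_three hn
  omega

theorem bound_ph {n : ℕ} {v : ℤ × ℤ} (hv : ph v = n) :
    v ∈ (Finset.Icc (-(2 * n + 1 : ℤ)) (2 * n + 1)) ×ˢ (Finset.Icc (-(2 * n + 1 : ℤ)) (2 * n + 1)) := by
  obtain ⟨x, y⟩ := v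
  have h1 : Qf 1 1 1 (x, y) = n := by
    rw [← ph_cast]
    exact congrArg _ hv
  unfold Qf at h1
  simp only at h1
  have hx : x ^ 2 ≤ 2 * n := by nlinarith [sq_nonneg (x + 2 * y)]
  have hy : y ^ 2 ≤ 2 * n := by nlinarith [sq_nonneg (2 * x + y)]
  have key : ∀ z : ℤ, z ^ 2 ≤ 2 * n → -(2 * n + 1 : ℤ) ≤ z ∧ z ≤ 2 * n + 1 := by
    intro z hz
    constructor <;> nlinarith [sq_nonneg (z - 1), sq_nonneg (z + 1)]
  simp only [Finset.mem_product, Finset.mem_Icc]
  exact ⟨⟨(key x hx).1, (key x hx).2⟩, ⟨(key y hy).1, (key y hy).2⟩⟩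

theorem cc_eq (n : ℕ) : cc n = (((Finset.Icc (-(2 * n + 1 : ℤ)) (2 * n + 1)) ×ˢ
    (Finset.Icc (-(2 * n + 1 : ℤ)) (2 * n + 1))).filter (fun v => ph v = n)).card := by
  unfold cc
  rw [← Fintype.card_coe]
  refine Fintype.card_congr
    { toFun := fun v => ⟨v.1, Finset.mem_filter.2 ⟨bound_ph v.2, v.2⟩⟩
      invFun := fun v => ⟨v.1, (Finset.mem_filter.1 v.2).2⟩
      left_inv := fun v => rfl
      right_inv := fun v => rfl }

theorem cc_one : cc 1 = 6 := by
  rw [cc_eq]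
  decide +kernel

end Vale.Agent.P022.H406.L3
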