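import Vale.Agent.P022.H406.L3.CC6
import Vale.Agent.P022.H494.L3.Id
import Vale.Agent.P022.H29.L3.Onto
import Vale.Agent.P022.H236.L3.Int

/-! # P022-L3: the integral expansion of the Hauptmodul of `Γ₀(6)` -/

open UpperHalfPlane ModularForm
open scoped Manifold MatrixGroups ModularForm

noncomputable section

namespace Vale.Agent.P022.H406.L3

open Vale.Agent.P022.H218.L3 Vale.Agent.P022.H494.L3 Vale.Agent.P022.H29.L3
  Vale.Agent.P022.H236.L3 Vale.Agent.P022.H542.L3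
open Vale.Agent.P022.H239.L3 (cc)

/-- the coefficients of `X` -/
def xc (n : ℕ) : ℤ := cc n

/-- the coefficients of `Y` -/
def yc (n : ℕ) : ℤ := if 2 ∣ n then (cc (n / 2) : ℤ) else 0

theorem xc_zero : xc 0 = 1 := by
  unfold xc
  rw [H239.L3.cc_zero]
  rfl

theorem yc_zero : yc 0 = 1 := by
  unfold yc
  rw [if_pos (by norm_num), Nat.zero_div, H239.L3.cc_zero]
  rfl

theorem xc_one : xc 1 = 6 := by
  unfold xc
  rw [cc_one]
  rfl

theorem yc_one : yc 1 = 0 := by
  unfold yc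
  rw [if_neg (by norm_num)]

theorem xc_dvd {n : ℕ} (hn : n ≠ 0) : (6 : ℤ) ∣ xc n := by
  unfold xc
  exact_mod_cast cc_six (Nat.pos_of_ne_zero hn)

theorem yc_dvd {n : ℕ} (hn : n ≠ 0) : (6 : ℤ) ∣ yc n := by
  unfold yc
  split_ifs with h
  · have : 0 < n / 2 := by
      obtain ⟨k, rfl⟩ := h
      rw [Nat.mul_div_cancel_left _ (by norm_num)]
      omega
    exact_mod_cast cc_six this
  · exact dvd_zero _

/-- `(X - Y) / 6` -/
def As : PowerSeries ℤ := PowerSeries.mk fun n => (xc n - yc n) / 6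

/-- `(X + 2 Y) / 3` -/
def Bs : PowerSeries ℤ := PowerSeries.mk fun n => (xc n + 2 * yc n) / 3

theorem As_mul (n : ℕ) : As.coeff n * 6 = xc n - yc n := by
  rw [As, PowerSeries.coeff_mk]
  refine Int.ediv_mul_cancel ?_
  rcases eq_or_ne n 0 with rfl | hn
  · rw [xc_zero, yc_zero]; norm_num
  · exact dvd_sub (xc_dvd hn) (yc_dvd hn)

theorem Bs_mul (n : ℕ) : Bs.coeff n * 3 = xc n + 2 * yc n := by
  rw [Bs, PowerSeries.coeff_mk]
  refine Int.ediv_mul_cancel ?_
  rcases eq_or_ne n 0 with rfl | hn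
  · rw [xc_zero, yc_zero]; norm_num
  · have h1 := xc_dvd hn
    have h2 := yc_dvd hn
    omega

theorem As_zero : As.coeff 0 = 0 := by
  have h := As_mul 0
  rw [xc_zero, yc_zero] at h
  omega

theorem As_one : As.coeff 1 = 1 := by
  have h := As_mul 1
  rw [xc_one, yc_one] at h
  omega

theorem Bs_zero : Bs.coeff 0 = 1 := by
  have h := Bs_mul 0
  rw [xc_zero, yc_zero] at h
  omega

/-- the expansion of the Hauptmodul -/
def Ds : PowerSeries ℤ := As * PowerSeries.invOfUnit Bs 1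

theorem Ds_one : Ds.coeff 1 = 1 := by
  have h0 : (PowerSeries.invOfUnit Bs 1).coeff 0 = 1 := by
    rw [PowerSeries.coeff_zero_eq_constantCoeff_apply, PowerSeries.constantCoeff_invOfUnit]
    rfl
  rw [Ds, PowerSeries.coeff_mul]
  rw [show (Finset.HasAntidiagonal.antidiagonal 1 : Finset (ℕ × ℕ)) = {(0, 1), (1, 0)} from rfl]
  rw [Finset.sum_pair (by decide), As_zero, As_one, h0]
  norm_num

theorem Ds_mul : Bs * Ds = As := by
  have h := PowerSeries.mul_invOfUnit Bs 1 (by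
    rw [← PowerSeries.coeff_zero_eq_constantCoeff_apply, Bs_zero]; rfl)
  rw [Ds, mul_left_comm, h, mul_one]

theorem exL_X : ExL 1 (ls 0 PX) X := by
  have h := exL_of_hasSum (N := 1) (a := fun n => PX.coeff n) (f := X) (fun τ => by
    have := QE_X τ
    simpa using this)
  have e : HahnSeries.ofPowerSeries ℤ ℂ (PowerSeries.mk fun n => PX.coeff n) = ls 0 PX := by
    have e1 : (PowerSeries.mk fun n => PX.coeff n) = PX := by
      ext n
      simp
    rw [e1, ls]
    exact (one_mul (HahnSeries.ofPowerSeries ℤ ℂ PX)).symm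
  rwa [e] at h

theorem exL_Y : ExL 1 (ls 0 PY) Y := by
  have h := exL_of_hasSum (N := 1) (a := fun n => PY.coeff n) (f := Y) (fun τ => by
    have := QE_Y τ
    simpa using this)
  have e : HahnSeries.ofPowerSeries ℤ ℂ (PowerSeries.mk fun n => PY.coeff n) = ls 0 PY := by
    have e1 : (PowerSeries.mk fun n => PY.coeff n) = PY := by
      ext n
      simp
    rw [e1, ls]
    exact (one_mul (HahnSeries.ofPowerSeries ℤ ℂ PY)).symm
  rwa [e] at h

theorem PX_coeff (n : ℕ) : PX.coeff n = ((xc n : ℤ) : ℂ) := by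
  rw [PX, PowerSeries.coeff_mk, xc]
  push_cast
  rfl

theorem PY_coeff (n : ℕ) : PY.coeff n = ((yc n : ℤ) : ℂ) := by
  rw [PY, PowerSeries.coeff_mk, yc]
  split_ifs
  · push_cast
    rfl
  · push_cast
    rfl

theorem comb (a b : ℂ) (Q : PowerSeries ℤ)
    (h : ∀ n, a * ((xc n : ℤ) : ℂ) + b * ((yc n : ℤ) : ℂ) = ((Q.coeff n : ℤ) : ℂ)) :
    ExL 1 (ls 0 (toCi Q)) (a • X + b • Y) := by
  have h1 := (exL_X.smul a).add (exL_Y.smul b)
  have e : HahnSeries.C a * ls 0 PX + HahnSeries.C b * ls 0 PY = ls 0 (toCi Q) := by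
    rw [← ls_C, ← ls_C, ls_mul, ls_mul, add_zero, ls_add]
    congr 1
    ext n
    rw [map_add, PowerSeries.coeff_C_mul, PowerSeries.coeff_C_mul, PX_coeff, PY_coeff, h,
      PowerSeries.coeff_map]
    rfl
  rwa [e] at h1

theorem exL_hp : ExL 1 (ls 0 (toCi Ds)) (hp X Y) := by
  have hA := comb (1 / 6) (-1 / 6) As (fun n => by
    have := As_mul n
    have h2 : ((As.coeff n : ℤ) : ℂ) * 6 = (xc n : ℤ) - (yc n : ℤ) := by exact_mod_cast this
    linear_combination (-1 / 6 : ℂ) * h2)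
  have hB := comb (1 / 3) (2 / 3) Bs (fun n => by
    have := Bs_mul n
    have h2 : ((Bs.coeff n : ℤ) : ℂ) * 3 = (xc n : ℤ) + 2 * (yc n : ℤ) := by exact_mod_cast this
    linear_combination (-1 / 3 : ℂ) * h2)
  have hB0 : ls 0 (toCi Bs) ≠ 0 := by
    rw [Ne, ls_eq_zero]
    intro h
    have h1 := congrArg (fun P : PowerSeries ℂ => P.coeff 0) h
    simp only [PowerSeries.coeff_map, Bs_zero, map_zero, map_one] at h1
    exact one_ne_zero h1
  have h := hA.div one_ne_zero hB hB0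
  have e1 : ls 0 (toCi As) / ls 0 (toCi Bs) = ls 0 (toCi Ds) := by
    rw [div_eq_iff hB0, ls_mul, add_zero, ← map_mul, mul_comm Ds, Ds_mul]
  have e2 : ((1 / 6 : ℂ) • X + (-1 / 6 : ℂ) • Y) / ((1 / 3 : ℂ) • X + (2 / 3 : ℂ) • Y) =
      hp X Y := by
    funext τ
    have h4 := (fac_ne τ).2.2.2
    simp only [Pi.div_apply, Pi.add_apply, Pi.smul_apply, smul_eq_mul, hp]
    have h5 : (1 / 3 : ℂ) * X τ + 2 / 3 * Y τ ≠ 0 := by
      intro h0
      apply h4
      linear_combination 3 * h0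
    rw [div_eq_div_iff h5 (mul_ne_zero two_ne_zero h4)]
    ring
  rw [e1, e2] at h
  exact h

theorem exL_hpN (N : ℕ) (hN : 0 < N) : ExL N (sb N hN (ls 0 (toCi Ds))) (hp X Y) := by
  have h := exL_hp.period hN one_ne_zero
  rwa [one_mul] at h

theorem int_sb (N : ℕ) (hN : 0 < N) (Q : PowerSeries ℤ) (n : ℤ) :
    ∃ z : ℤ, (sb N hN (ls 0 (toCi Q))).coeff n = z := by
  by_cases h : (N : ℤ) ∣ n
  · obtain ⟨k, rfl⟩ := h
    rw [coeff_sb_mul]
    rcases lt_or_ge k 0 with hk | hk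
    · exact ⟨0, by rw [coeff_ls_of_lt _ _ hk, Int.cast_zero]⟩
    · obtain ⟨j, rfl⟩ := Int.eq_ofNat_of_zero_le hk
      have := coeff_ls 0 (toCi Q) j
      rw [zero_add] at this
      refine ⟨Q.coeff j, ?_⟩
      rw [this, PowerSeries.coeff_map]
      rfl
  · exact ⟨0, by rw [coeff_sb_of_not_dvd _ _ _ _ h, Int.cast_zero]⟩

theorem lead_sb (N : ℕ) (hN : 0 < N) : (sb N hN (ls 0 (toCi Ds))).coeff N = 1 := by
  have h := coeff_sb_mul N hN (ls 0 (toCi Ds)) 1
  rw [mul_one] at h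
  rw [h]
  have := coeff_ls 0 (toCi Ds) 1
  rw [zero_add] at this
  have h1 : ((1 : ℕ) : ℤ) = 1 := rfl
  rw [h1] at this
  rw [this, PowerSeries.coeff_map, Ds_one]
  simp

end Vale.Agent.P022.H406.L3
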