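import Vale.Agent.P022.H138.L3.Fill
import Vale.Agent.P022.H218.L3.Gal
import Vale.Agent.P022.H587.L3.Kum
import Vale.Agent.P022.H724.L3.Tay
import Vale.Agent.P022.H527.L3.Grp

/-! # P022-L3: fields of `Geo` -/

open UpperHalfPlane ModularForm HahnSeries
open scoped Manifold MatrixGroups ModularForm IntermediateField

noncomputable section

namespace Vale.Agent.P022.H406.L3

open Vale.Agent.P022.H542.L3 Vale.Agent.P022.H218.L3 Vale.Agent.P022.L3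
  Vale.Agent.P022.H527.L3 Vale.Agent.P022.H587.L3

/-! ### the cusp values -/

/-- the finite cusp values -/
def S0 : Finset ℚ := {0, 1 / 8, -1}

theorem mem_S0 {s : ℚ} : s ∈ S0 ↔ s = 0 ∨ s = 1 / 8 ∨ s = -1 := by simp [S0]

theorem S0_int : ∀ s ∈ S0, BInt 6 (s : ℂ) := by
  intro s hs
  rcases mem_S0.1 hs with rfl | rfl | rfl
  · exact ⟨0, 0, by norm_num⟩
  · exact ⟨3, 27, by norm_num⟩
  · exact ⟨0, -1, by norm_num⟩

theorem S0_sep : ∀ s ∈ S0, ∀ s' ∈ S0, s ≠ s' → BUnit 6 ((s : ℂ) - s') := by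
  intro s hs s' hs' hne
  rcases mem_S0.1 hs with rfl | rfl | rfl <;> rcases mem_S0.1 hs' with rfl | rfl | rfl
  · exact absurd rfl hne
  · exact ⟨⟨3, -27, by norm_num⟩, ⟨0, -8, by norm_num⟩, by norm_num⟩
  · exact ⟨⟨0, 1, by norm_num⟩, ⟨0, 1, by norm_num⟩, by norm_num⟩
  · exact ⟨⟨3, 27, by norm_num⟩, ⟨0, 8, by norm_num⟩, by norm_num⟩
  · exact absurd rfl hne
  · exact ⟨⟨3, 243, by norm_num⟩, ⟨2, 32, by norm_num⟩, by norm_num⟩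
  · exact ⟨⟨0, -1, by norm_num⟩, ⟨0, -1, by norm_num⟩, by norm_num⟩
  · exact ⟨⟨3, -243, by norm_num⟩, ⟨2, -32, by norm_num⟩, by norm_num⟩
  · exact absurd rfl hne

/-! ### points -/

/-- evaluation of holomorphic functions on the complex plane -/
def evH : Hol →ₐ[ℂ] (ℂ → ℂ) where
  toFun f := (f : ℍ → ℂ) ∘ ofComplex
  map_one' := rfl
  map_mul' _ _ := rfl
  map_zero' := rfl
  map_add' _ _ := rfl
  commutes' _ := rfl

theorem evH_apply (f : Hol) : evH f = (f : ℍ → ℂ) ∘ ofComplex := rfl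

theorem exists_theta {P : ℍ → ℂ} (hP : P ∈ Hol) (τ : ℍ) (hd : deriv (P ∘ ofComplex) (τ : ℂ) ≠ 0) :
    ∃ θ : Mer →ₐ[ℂ] LS, θ (inc P hP) = C (P τ) + single 1 1 ∧
      ∀ f (hf : f ∈ Hol), f ≠ 0 → (θ (inc f hf)).order = (om τ f : ℤ) := by
  obtain ⟨θ, h1, -, h3⟩ := H724.L3.exists_theta (R := Hol) (K := Mer) evH (τ : ℂ)
    (fun x => analyticAt_of_mdiff x.2 τ.im_pos)
    (fun x hx => order_ne_top x.2 (fun h => hx (Subtype.ext h)) τ) (⟨P, hP⟩ : Hol) hd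
  refine ⟨θ, ?_, fun f hf h0 => ?_⟩
  · rw [evH_apply] at h1
    have : ((⟨P, hP⟩ : Hol) : ℍ → ℂ) ∘ ofComplex = P ∘ ofComplex := rfl
    rw [this, Function.comp_apply, ofComplex_apply] at h1
    exact h1
  · exact h3 ⟨f, hf⟩ (fun h => h0 (congrArg Subtype.val h))

theorem exists_pt (Γ : Subgroup SL(2, ℤ)) {P : ℍ → ℂ} (hP : P ∈ Hol) (hm : inc P hP ∈ MF Γ)
    (hd : ∀ τ : ℍ, deriv (P ∘ ofComplex) (τ : ℂ) ≠ 0) (S : Finset ℚ)
    (honto : ∀ a : ℂ, (∀ s ∈ S, a ≠ (s : ℂ)) → ∃ τ, P τ = a) (a : ℂ)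
    (ha : ∀ s ∈ S, a ≠ (s : ℂ)) :
    ∃ θ : MF Γ →ₐ[ℂ] LS, θ ⟨inc P hP, hm⟩ = C a + single 1 1 := by
  obtain ⟨τ, rfl⟩ := honto a ha
  obtain ⟨θ, h1, -⟩ := exists_theta hP τ (hd τ)
  exact ⟨θ.comp (MF Γ).val, h1⟩

end Vale.Agent.P022.H406.L3
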