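import Vale.Agent.P022.H406.L3.Base6
import Vale.Agent.P022.H406.L3.ExP
import Vale.Agent.P022.H280.L3.GeoR

/-! # P022-L3: generators and expansions for `G(3, M + 1)` -/

open UpperHalfPlane ModularForm HahnSeries CongruenceSubgroup
open scoped Manifold MatrixGroups ModularForm IntermediateField

noncomputable section

namespace Vale.Agent.P022.H406.L3

open Vale.Agent.P022.H218.L3 Vale.Agent.P022.H494.L3 Vale.Agent.P022.H29.L3
  Vale.Agent.P022.H236.L3 Vale.Agent.P022.H542.L3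

theorem T_pow_mem (M : ℕ) : ModularGroup.T ^ (2 ^ M) ∈ G3 M := by
  rw [mem_G3]
  have h : ((ModularGroup.T ^ (2 ^ M) : SL(2, ℤ)) : Matrix (Fin 2) (Fin 2) ℤ) =
      !![1, ((2 ^ M : ℕ) : ℤ); 0, 1] := by
    rw [← zpow_natCast, ModularGroup.coe_T_zpow]
  have e : ∀ i j, (ModularGroup.T ^ (2 ^ M) : SL(2, ℤ)) i j =
      (!![1, ((2 ^ M : ℕ) : ℤ); 0, 1] : Matrix (Fin 2) (Fin 2) ℤ) i j := fun i j => by rw [← h]
  refine ⟨?_, ?_, Or.inl ?_⟩
  · rw [e 1 0]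
    exact dvd_zero _
  · rw [e 0 1]
    exact dvd_refl _
  · rw [e 1 1]
    exact ⟨0, by simp⟩

theorem tex_p (M : ℕ) : texM (T_pow_mem (M + 1)) (base6.p M) =
    sb (2 ^ (M + 1)) (pow_pos (by norm_num) _) (ls 0 (toCi Ds)) :=
  texM_eq (T_pow_mem (M + 1)) ((exL_hpN (2 ^ (M + 1)) (pow_pos (by norm_num) _)).exM_inc hpH)

theorem texM_int (M : ℕ) (r : KM M) (hr : r ∈ H280.L3.Rset (base6.p M)) (n : ℤ) :
    ∃ z : ℤ, (texM (T_pow_mem (M + 1)) r).coeff n = z := by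
  rcases hr with rfl | ⟨u, b, hu, hr⟩
  · rw [tex_p]
    exact int_sb _ _ _ n
  · exact int_Fe (T_pow_mem (M + 1)) hu b r _ _ hr n

/-- **the generators** -/
def gen6 (M : ℕ) (hM : 1 ≤ M) : GenIn base6 M where
  e := texM (T_pow_mem (M + 1))
  R := H280.L3.Rset (base6.p M)
  pR := H280.L3.p_mem _
  int r hr := ⟨0, fun n => by
    obtain ⟨z, hz⟩ := texM_int M r hr n
    exact ⟨z, by rw [pow_zero, one_mul, hz]⟩⟩
  lead := ⟨((2 ^ (M + 1) : ℕ) : ℤ), by positivity, by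
    have h : (texM (T_pow_mem (M + 1)) (base6.p M)).coeff ((2 ^ (M + 1) : ℕ) : ℤ) = 1 := by
      rw [tex_p]
      exact lead_sb _ _
    rw [h]
    exact ⟨⟨0, 1, by simp⟩, ⟨0, 1, by simp⟩, one_ne_zero⟩⟩
  stab γ hγ h := H280.L3.stab_Rset (by omega) (base6.p M) γ hγ h

end Vale.Agent.P022.H406.L3
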