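import Vale.Agent.P022.H406.L3.Gen6
import Vale.Agent.P022.H231.L3.Chr
import Vale.Agent.P022.H236.L3.Te
import Vale.Agent.P022.H587.L3.Kum3

/-! # P022-L3: the Hecke operators, and `Fill M` -/

open UpperHalfPlane ModularForm HahnSeries CongruenceSubgroup
open scoped Manifold MatrixGroups ModularForm IntermediateField

noncomputable section

namespace Vale.Agent.P022.H406.L3

open Vale.Agent.P022.H218.L3 Vale.Agent.P022.H542.L3 Vale.Agent.P022.L3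
  Vale.Agent.P022.H587.L3

/-- the two moduli -/
abbrev PM (M : ℕ) : ℤ := ((2 ^ M : ℕ) : ℤ)

abbrev QM (M : ℕ) : ℤ := ((3 * 2 ^ M : ℕ) : ℤ)

theorem G3_eq (M : ℕ) : G3 M = H231.L3.Gp (PM M) (QM M) := by
  ext γ
  rw [mem_G3]
  exact H231.L3.mem_Gp.symm

theorem gd {M ℓ : ℕ} (h : ℓ.Prime) (h6 : ¬ ℓ ∣ 6) : H231.L3.Gd (PM M) (QM M) ℓ := by
  have h2 : Nat.Coprime ℓ 2 := (Nat.Prime.coprime_iff_not_dvd h).2 fun e => h6 (e.trans ⟨3, rfl⟩)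
  have h3 : Nat.Coprime ℓ 3 := (Nat.Prime.coprime_iff_not_dvd h).2 fun e => h6 (e.trans ⟨2, rfl⟩)
  refine ⟨h, ?_, ?_⟩
  · exact Nat.isCoprime_iff_coprime.2 (Nat.Coprime.pow_right M h2)
  · exact Nat.isCoprime_iff_coprime.2 (Nat.Coprime.mul_right h3 (Nat.Coprime.pow_right M h2))

theorem odd_of {ℓ : ℕ} (h : ℓ.Prime) (h6 : ¬ ℓ ∣ 6) : Odd ℓ :=
  h.odd_of_ne_two fun e => h6 (by rw [e]; exact ⟨3, rfl⟩)

theorem zero_lt_two_pow (n : ℕ) : 0 < 2 ^ n := pow_pos (by norm_num) n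

theorem ez_sum {N : ℕ} (hN : 0 < N) {ι : Type*} (s : Finset ι) (c : ι → ZMod N) :
    ez N (∑ i ∈ s, c i) = ∏ i ∈ s, ez N (c i) := by
  classical
  induction s using Finset.induction_on with
  | empty => rw [Finset.sum_empty, Finset.prod_empty, ez_zero]
  | insert a s ha ih => rw [Finset.sum_insert ha, Finset.prod_insert ha, ez_add hN, ih]

theorem alp_eq (M ℓ : ℕ) (δ : SL(2, ℤ)) (i : Option (Fin ℓ)) :
    alp M ℓ δ i = H231.L3.al (PM M) ℓ δ i := by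
  cases i <;> rfl

theorem h0_six (M : ℕ) (hM : 1 ≤ M) (γ : SL(2, ℤ)) (h : QM M ∣ γ 1 0) : γ ∈ Gamma0 6 := by
  rw [Gamma0_mem, ZMod.intCast_zmod_eq_zero_iff_dvd]
  refine Dvd.dvd.trans ?_ h
  obtain ⟨k, rfl⟩ : ∃ k, M = k + 1 := ⟨M - 1, by omega⟩
  refine ⟨(2 ^ k : ℤ), ?_⟩
  push_cast
  ring

/-- the Kummer root of `T_ℓ f` -/
theorem val_T {M n ℓ : ℕ} (h : ℓ.Prime) {d : SL(2, ℤ)} (hd : IsDel 3 M ℓ d)
    {φ ψ : V 3 M n} {y : Mer} (hv : IsVal (H231.L3.Gp (PM M) (QM M)) y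
      (φ : SL(2, ℤ) → ZMod (2 ^ n))) (hT : IsT 3 M n ℓ φ ψ) :
    IsVal (H231.L3.Gp (PM M) (QM M)) (H231.L3.TM h.pos (PM M) d y)
      (ψ : SL(2, ℤ) → ZMod (2 ^ n)) := by
  intro γ hγ
  obtain ⟨π, g, hg, he, hs⟩ := hT d hd γ hγ
  have h1 : ∀ i, act γ⁻¹ (H231.L3.pbz (H231.L3.al (PM M) ℓ d i) (H231.L3.al_pos h.pos d i) y) =
      algebraMap ℂ Mer (ez (2 ^ n) ((φ : SL(2, ℤ) → ZMod (2 ^ n)) (g i))) *
        H231.L3.pbz (H231.L3.al (PM M) ℓ d (π i)) (H231.L3.al_pos h.pos d _) y := by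
    intro i
    have e := he i
    rw [alp_eq, alp_eq] at e
    have hp1 : 0 < (H231.L3.al (PM M) ℓ d i * (γ : Matrix (Fin 2) (Fin 2) ℤ)).det := by
      rw [Matrix.det_mul]; exact mul_pos (H231.L3.al_pos h.pos d i) (H231.L3.SL_pos γ)
    have hp2 : 0 < ((g i : Matrix (Fin 2) (Fin 2) ℤ) * H231.L3.al (PM M) ℓ d (π i)).det := by
      rw [← e]; exact hp1
    rw [← H231.L3.pbz_SL, ← H231.L3.pbz_mul (H231.L3.al_pos h.pos d i) (H231.L3.SL_pos γ) hp1,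
      H231.L3.pbz_congr e hp1 hp2, H231.L3.pbz_mul (H231.L3.SL_pos _)
      (H231.L3.al_pos h.pos d _) hp2, H231.L3.pbz_SL, hv (g i) (hg i), map_mul,
      AlgEquiv.commutes]
  unfold H231.L3.TM
  rw [map_prod]
  simp_rw [h1]
  rw [Finset.prod_mul_distrib, hs, ez_sum (zero_lt_two_pow n), map_prod]
  congr 1
  exact Equiv.prod_comp π (fun j => H231.L3.pbz (H231.L3.al (PM M) ℓ d j)
    (H231.L3.al_pos h.pos d j) y)

/-- the Kummer root of `D_ℓ f` -/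
theorem val_D {M n : ℕ} {a : ℤ} {d : SL(2, ℤ)} (hd : IsDel 3 M a d)
    {φ ψ : V 3 M n} {y : Mer} (hv : IsVal (H231.L3.Gp (PM M) (QM M)) y
      (φ : SL(2, ℤ) → ZMod (2 ^ n))) (hD : IsD 3 M n a φ ψ) :
    IsVal (H231.L3.Gp (PM M) (QM M)) (act d⁻¹ y) (ψ : SL(2, ℤ) → ZMod (2 ^ n)) := by
  intro γ hγ
  have hd' : H231.L3.IsDel (PM M) (QM M) a d := hd
  have h1 := hv (d * γ * d⁻¹) (hd'.conj hγ)
  have e : γ⁻¹ * d⁻¹ = d⁻¹ * (d * γ * d⁻¹)⁻¹ := by group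
  rw [← AlgEquiv.mul_apply, ← map_mul, e, map_mul, AlgEquiv.mul_apply, h1, map_mul,
    AlgEquiv.commutes, hD d hd γ]

end Vale.Agent.P022.H406.L3
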